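import Vale.Agent.P249.Core2
import Vale.Agent.P249.Nets
import Vale.Agent.P249.Sparse

/-!
Dimension reduction to `O(n log n)` for finite subsets of `L_p`, for every `p ≥ 1`.
-/

namespace Vale.Agent.Results.P249.NLogN

open MeasureTheory Finset Vale.Agent.P249
open scoped ENNReal

universe u

/-- Every `n`-point subset of every space `L_p(μ)` admits a map into `ℓ_p^d` with distortion
at most `D`. -/
def EmbedsInto (p D : ℝ) (n d : ℕ) : Prop :=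
  ∀ (Ω : Type u) [MeasurableSpace Ω] (μ : Measure Ω) (X : Finset (Lp ℝ (ENNReal.ofReal p) μ)),
    X.card = n → ∃ (f : Lp ℝ (ENNReal.ofReal p) μ → Fin d → ℝ) (s : ℝ), 0 < s ∧
      ∀ x ∈ X, ∀ y ∈ X, s * ‖x - y‖ ≤ (∑ j, |f x j - f y j| ^ p) ^ (1 / p) ∧
        (∑ j, |f x j - f y j| ^ p) ^ (1 / p) ≤ D * s * ‖x - y‖

theorem norm_rpow_eq {Ω : Type*} [MeasurableSpace Ω] {μ : Measure Ω} {p : ℝ} (hp : 0 < p)
    (f : Lp ℝ (ENNReal.ofReal p) μ) :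
    Integrable (fun ω => |f ω| ^ p) μ ∧ ∫ ω, |f ω| ^ p ∂μ = ‖f‖ ^ p := by
  have h0 : ENNReal.ofReal p ≠ 0 := by simpa using hp
  have htop : ENNReal.ofReal p ≠ ∞ := ENNReal.ofReal_ne_top
  have hr : (ENNReal.ofReal p).toReal = p := ENNReal.toReal_ofReal hp.le
  have hm := Lp.memLp f
  have h1 := hm.integrable_norm_rpow h0 htop
  rw [hr] at h1
  have h2 := hm.eLpNorm_eq_integral_rpow_norm h0 htop
  rw [hr] at h2
  refine ⟨h1, ?_⟩
  have h3 : 0 ≤ ∫ ω, ‖f ω‖ ^ p ∂μ := integral_nonneg fun ω => by positivity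
  rw [Lp.norm_def, h2, ENNReal.toReal_ofReal (by positivity), ← Real.rpow_mul h3,
    inv_mul_cancel₀ hp.ne', Real.rpow_one]
  rfl

theorem norm_sub_rpow_eq {Ω : Type*} [MeasurableSpace Ω] {μ : Measure Ω} {p : ℝ} (hp : 0 < p)
    (f g : Lp ℝ (ENNReal.ofReal p) μ) :
    Integrable (fun ω => |f ω - g ω| ^ p) μ ∧ ∫ ω, |f ω - g ω| ^ p ∂μ = ‖f - g‖ ^ p := by
  obtain ⟨h1, h2⟩ := norm_rpow_eq hp (f - g)
  have hae : (fun ω => |(f - g : Lp ℝ (ENNReal.ofReal p) μ) ω| ^ p) =ᵐ[μ]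
      fun ω => |f ω - g ω| ^ p := by
    filter_upwards [Lp.coeFn_sub f g] with ω hω
    rw [hω]
    rfl
  exact ⟨h1.congr hae, by rw [← h2]; exact (integral_congr_ae hae).symm⟩

theorem embed_of_params {p : ℝ} (hp : 1 ≤ p) {C : ℝ} (hC : 0 < C)
    (hdom : ∀ (X : Type u) [Fintype X] [DecidableEq X] (d : X → X → ℝ),
      (∀ x, d x x = 0) → (∀ x y, d x y = d y x) → (∀ x y z, d x z ≤ d x y + d y z) →
      (∀ x y, x ≠ y → 0 < d x y) →
      ∃ E : Finset (X × X), (E.card : ℝ) ≤ C * Fintype.card X ∧ (∀ e ∈ E, e.1 ≠ e.2) ∧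
        ∀ (g : X → ℝ) (x y : X), |g x - g y| ^ p ≤
          C * d x y ^ p * ∑ e ∈ E, |g e.1 - g e.2| ^ p / d e.1 e.2 ^ p)
    {D : ℝ} (hD : 1 < D) {n N : ℕ} (hn : 2 ≤ n) (hN0 : 0 < N)
    (hN : 2 * (n : ℝ) ^ 2 * Real.exp (-(N * ((D ^ p - 1) / (D ^ p + 1)) ^ 2 /
      (4 * (C * (C * n))))) < 1) : EmbedsInto.{u} p D n N := by
  classical
  intro Ω _ μ X hX
  have hp0 : 0 < p := by linarith
  have : Fact (1 ≤ ENNReal.ofReal p) := ⟨by
    rw [← ENNReal.ofReal_one]; exact ENNReal.ofReal_le_ofReal hp⟩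
  set δ : ℝ := (D ^ p - 1) / (D ^ p + 1) with hδ
  have hDp : 1 < D ^ p := Real.one_lt_rpow hD hp0
  have hδ0 : 0 < δ := div_pos (by linarith) (by linarith)
  have hδ1 : δ < 1 := by rw [hδ, div_lt_one (by linarith)]; linarith
  have hcard : Fintype.card {x // x ∈ X} = n := by rw [Fintype.card_coe, hX]
  obtain ⟨E, hE1, hE2, hE3⟩ := hdom {x // x ∈ X} (fun x y => ‖x.1 - y.1‖)
    (fun x => by simp) (fun x y => norm_sub_rev _ _) (fun x y z => norm_sub_le_norm_sub_add_norm_sub _ _ _)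
    (fun x y hxy => norm_pos_iff.mpr (sub_ne_zero.mpr fun h => hxy (Subtype.ext h)))
  obtain ⟨φ, hφ⟩ := core2 μ (fun (x : {x // x ∈ X}) ω => (x.1 : Ω → ℝ) ω)
    (fun x => (Lp.stronglyMeasurable x.1).measurable) hp (fun x y => ‖x.1 - y.1‖)
    (fun x => by simp)
    (fun x y hxy => norm_pos_iff.mpr (sub_ne_zero.mpr fun h => hxy (Subtype.ext h)))
    (fun x y => (norm_sub_rpow_eq hp0 x.1 y.1).1) (fun x y => (norm_sub_rpow_eq hp0 x.1 y.1).2)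
    E hE2 hC hE1 (by rw [hcard]; exact hn) hE3 hδ0 hδ1.le N hN0
    (by rw [hcard]; exact hN)
  refine ⟨fun x => if h : x ∈ X then φ ⟨x, h⟩ else 0, (1 - δ) ^ (1 / p),
    Real.rpow_pos_of_pos (by linarith) _, ?_⟩
  intro x hx y hy
  obtain ⟨h1, h2⟩ := hφ ⟨x, hx⟩ ⟨y, hy⟩
  simp only [hx, hy, dif_pos]
  have hS0 : 0 ≤ ∑ j, |φ ⟨x, hx⟩ j - φ ⟨y, hy⟩ j| ^ p :=
    Finset.sum_nonneg fun j _ => by positivity
  have hroot : ∀ c : ℝ, 0 ≤ c → (c * ‖x - y‖ ^ p) ^ (1 / p) = c ^ (1 / p) * ‖x - y‖ := by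
    intro c hc
    rw [Real.mul_rpow hc (by positivity), ← Real.rpow_mul (norm_nonneg _),
      mul_one_div_cancel hp0.ne', Real.rpow_one]
  constructor
  · rw [← hroot _ (by linarith)]
    have hL0 : 0 ≤ (1 - δ) * ‖x - y‖ ^ p := mul_nonneg (by linarith) (by positivity)
    exact Real.rpow_le_rpow hL0 h1 (by positivity)
  · have h3 : (1 + δ) = D ^ p * (1 - δ) := by
      rw [hδ]; field_simp; ring
    have h4 : (1 + δ) ^ (1 / p) = D * (1 - δ) ^ (1 / p) := by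
      rw [h3, Real.mul_rpow (by positivity) (by linarith), ← Real.rpow_mul (by linarith),
        mul_one_div_cancel hp0.ne', Real.rpow_one]
    calc (∑ j, |φ ⟨x, hx⟩ j - φ ⟨y, hy⟩ j| ^ p) ^ (1 / p)
        ≤ ((1 + δ) * ‖x - y‖ ^ p) ^ (1 / p) := Real.rpow_le_rpow hS0 h2 (by positivity)
      _ = (1 + δ) ^ (1 / p) * ‖x - y‖ := hroot _ (by linarith)
      _ = D * (1 - δ) ^ (1 / p) * ‖x - y‖ := by rw [h4]

theorem exists_params {p : ℝ} (hp : 1 ≤ p) {C : ℝ} (hC : 0 < C) {D : ℝ} (hD : 1 < D) :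
    ∃ K : ℝ, 0 < K ∧ ∀ n : ℕ, 2 ≤ n → ∃ N : ℕ, 0 < N ∧
      2 * (n : ℝ) ^ 2 * Real.exp (-(N * ((D ^ p - 1) / (D ^ p + 1)) ^ 2 /
        (4 * (C * (C * n))))) < 1 ∧ (N : ℝ) ≤ K * n * Real.log n := by
  have hp0 : 0 < p := by linarith
  have hDp : 1 < D ^ p := Real.one_lt_rpow hD hp0
  set δ : ℝ := (D ^ p - 1) / (D ^ p + 1) with hδ
  have hδ0 : 0 < δ := div_pos (by linarith) (by linarith)
  have hlog2 : 0 < Real.log 2 := Real.log_pos one_lt_two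
  refine ⟨12 * C ^ 2 / δ ^ 2 + 1 / Real.log 2, by positivity, ?_⟩
  intro n hn
  have hnR : (2 : ℝ) ≤ n := by exact_mod_cast hn
  have hlogn : Real.log 2 ≤ Real.log n := Real.log_le_log (by norm_num) hnR
  have hlogn0 : 0 < Real.log n := by linarith
  obtain ⟨l, hl⟩ : ∃ l : ℝ, l = Real.log n := ⟨_, rfl⟩
  rw [← hl] at hlogn hlogn0 ⊢
  set L : ℝ := C * (C * n) with hL
  have hL0 : 0 < L := by positivity
  set N : ℕ := ⌊12 * L * l / δ ^ 2⌋₊ + 1 with hN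
  have hN1 : 12 * L * l / δ ^ 2 < N := by rw [hN]; push_cast; exact Nat.lt_floor_add_one _
  have hN2 : (N : ℝ) ≤ 12 * L * l / δ ^ 2 + 1 := by
    have : (⌊12 * L * l / δ ^ 2⌋₊ : ℝ) ≤ 12 * L * l / δ ^ 2 := Nat.floor_le (by positivity)
    rw [hN]; push_cast
    linarith
  refine ⟨N, by omega, ?_, ?_⟩
  · have h1 : 3 * l < N * δ ^ 2 / (4 * L) := by
      rw [lt_div_iff₀ (by positivity)]
      rw [div_lt_iff₀ (by positivity)] at hN1
      linarith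
    have h2 : Real.exp (-(N * δ ^ 2 / (4 * L))) < Real.exp (-(3 * l)) :=
      Real.exp_lt_exp.mpr (by linarith)
    have h3 : Real.exp (-(3 * l)) = ((n : ℝ) ^ 3)⁻¹ := by
      rw [Real.exp_neg, hl]
      congr 1
      rw [show (3 : ℝ) * Real.log n = ((3 : ℕ) : ℝ) * Real.log n by norm_num, ← Real.log_pow,
        Real.exp_log (by positivity)]
    rw [h3] at h2
    calc 2 * (n : ℝ) ^ 2 * Real.exp (-(N * δ ^ 2 / (4 * L)))
        < 2 * (n : ℝ) ^ 2 * ((n : ℝ) ^ 3)⁻¹ := by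
          apply mul_lt_mul_of_pos_left h2 (by positivity)
      _ = 2 / (n : ℝ) := by field_simp
      _ ≤ 1 := by rw [div_le_one (by positivity)]; exact hnR
  · have h4 : 1 ≤ 1 / Real.log 2 * (n * l) := by
      rw [one_div, inv_mul_eq_div, le_div_iff₀ hlog2]
      nlinarith
    calc (N : ℝ) ≤ 12 * L * l / δ ^ 2 + 1 := hN2
      _ ≤ 12 * L * l / δ ^ 2 + 1 / Real.log 2 * (n * l) := by linarith
      _ = _ := by rw [hL]; ring

/-- For all `p ≥ 1` and `D > 1`, `d_p(n,D) ≤ C n log n`. -/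
theorem result : ∀ p D : ℝ, 1 ≤ p → 1 < D → ∃ C : ℝ, 0 < C ∧ ∀ n : ℕ, 2 ≤ n →
    ∃ d : ℕ, (d : ℝ) ≤ C * n * Real.log n ∧ EmbedsInto.{u} p D n d := by
  intro p D hp hD
  obtain ⟨C, hC, hdom⟩ := dominating_of_sparse.{u} hp (sparse.{u} hp)
  obtain ⟨K, hK, h⟩ := exists_params hp hC hD
  refine ⟨K, hK, fun n hn => ?_⟩
  obtain ⟨N, h1, h2, h3⟩ := h n hn
  exact ⟨N, h3, embed_of_params hp hC hdom hD hn h1 h2⟩

end Vale.Agent.Results.P249.NLogN
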