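import Vale.Agent.P249.Core

/-!
Near-linear dimension reduction for finite subsets of `L_p`.
-/

namespace Vale.Agent.Results.P249.NearLinear

open MeasureTheory Finset Vale.Agent.P249
open scoped ENNReal

universe u

/-- Every `n`-point subset of every space `L_p(μ)` admits a map into `ℓ_p^d` with distortion
at most `D`. -/
def EmbedsInto (p D : ℝ) (n d : ℕ) : Prop :=
  ∀ (Ω : Type u) [MeasurableSpace Ω] (μ : Measure Ω) (X : Finset (Lp ℝ (ENNReal.ofReal p) μ)),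
    X.card = n → ∃ (f : Lp ℝ (ENNReal.ofReal p) μ → Fin d → ℝ) (s : ℝ), 0 < s ∧
      ∀ x ∈ X, ∀ y ∈ X, s * ‖x - y‖ ≤ (∑ j, |f x j - f y j| ^ p) ^ (1 / p) ∧
        (∑ j, |f x j - f y j| ^ p) ^ (1 / p) ≤ D * s * ‖x - y‖

theorem norm_rpow_eq {Ω : Type*} [MeasurableSpace Ω] {μ : Measure Ω} {p : ℝ} (hp : 0 < p)
    (f : Lp ℝ (ENNReal.ofReal p) μ) :
    Integrable (fun ω => |f ω| ^ p) μ ∧ ∫ ω, |f ω| ^ p ∂μ = ‖f‖ ^ p := by
  have h0 : ENNReal.ofReal p ≠ 0 := by simpa using hp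
  have htop : ENNReal.ofReal p ≠ ∞ := ENNReal.ofReal_ne_top
  have hr : (ENNReal.ofReal p).toReal = p := ENNReal.toReal_ofReal hp.le
  have hm := Lp.memLp f
  have h1 := hm.integrable_norm_rpow h0 htop
  rw [hr] at h1
  have h2 := hm.eLpNorm_eq_integral_rpow_norm h0 htop
  rw [hr] at h2
  refine ⟨h1, ?_⟩
  have h3 : 0 ≤ ∫ ω, ‖f ω‖ ^ p ∂μ := integral_nonneg fun ω => by positivity
  rw [Lp.norm_def, h2, ENNReal.toReal_ofReal (by positivity), ← Real.rpow_mul h3,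
    inv_mul_cancel₀ hp.ne', Real.rpow_one]
  rfl

theorem norm_sub_rpow_eq {Ω : Type*} [MeasurableSpace Ω] {μ : Measure Ω} {p : ℝ} (hp : 0 < p)
    (f g : Lp ℝ (ENNReal.ofReal p) μ) :
    Integrable (fun ω => |f ω - g ω| ^ p) μ ∧ ∫ ω, |f ω - g ω| ^ p ∂μ = ‖f - g‖ ^ p := by
  obtain ⟨h1, h2⟩ := norm_rpow_eq hp (f - g)
  have hae : (fun ω => |(f - g : Lp ℝ (ENNReal.ofReal p) μ) ω| ^ p) =ᵐ[μ]
      fun ω => |f ω - g ω| ^ p := by
    filter_upwards [Lp.coeFn_sub f g] with ω hω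
    rw [hω]
    rfl
  exact ⟨h1.congr hae, by rw [← h2]; exact (integral_congr_ae hae).symm⟩

theorem embed_of_params {p : ℝ} (hp : 1 ≤ p) {D : ℝ} (hD : 1 < D) {n m N : ℕ} (hn : 2 ≤ n)
    (hm : (n : ℝ) < (4 / 3) ^ m) (hm1 : 1 ≤ m) (hN0 : 0 < N)
    (hN : 2 * (n : ℝ) ^ 2 * Real.exp (-(N * ((D ^ p - 1) / (D ^ p + 1)) ^ 2 /
      (4 * ((2 * m) ^ p * (4 * (n : ℝ) * m))))) < 1) : EmbedsInto.{u} p D n N := by
  classical
  intro Ω _ μ X hX
  have hp0 : 0 < p := by linarith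
  have : Fact (1 ≤ ENNReal.ofReal p) := ⟨by
    rw [← ENNReal.ofReal_one]; exact ENNReal.ofReal_le_ofReal hp⟩
  set δ : ℝ := (D ^ p - 1) / (D ^ p + 1) with hδ
  have hDp : 1 < D ^ p := Real.one_lt_rpow hD hp0
  have hδ0 : 0 < δ := div_pos (by linarith) (by linarith)
  have hδ1 : δ < 1 := by rw [hδ, div_lt_one (by linarith)]; linarith
  have hcard : Fintype.card {x // x ∈ X} = n := by rw [Fintype.card_coe, hX]
  obtain ⟨φ, hφ⟩ := core μ (fun (x : {x // x ∈ X}) ω => (x.1 : Ω → ℝ) ω)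
    (fun x => (Lp.stronglyMeasurable x.1).measurable) hp (fun x y => ‖x.1 - y.1‖)
    (fun x => by simp) (fun x y => norm_sub_rev _ _) (fun x y z => norm_sub_le_norm_sub_add_norm_sub _ _ _)
    (fun x y hxy => norm_pos_iff.mpr (sub_ne_zero.mpr fun h => hxy (Subtype.ext h)))
    (fun x y => (norm_sub_rpow_eq hp0 x.1 y.1).1) (fun x y => (norm_sub_rpow_eq hp0 x.1 y.1).2)
    m (by rw [hcard]; exact hm) hm1 (by rw [hcard]; exact hn) hδ0 hδ1.le N hN0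
    (by rw [hcard]; exact hN)
  refine ⟨fun x => if h : x ∈ X then φ ⟨x, h⟩ else 0, (1 - δ) ^ (1 / p),
    Real.rpow_pos_of_pos (by linarith) _, ?_⟩
  intro x hx y hy
  obtain ⟨h1, h2⟩ := hφ ⟨x, hx⟩ ⟨y, hy⟩
  simp only [hx, hy, dif_pos]
  have hS0 : 0 ≤ ∑ j, |φ ⟨x, hx⟩ j - φ ⟨y, hy⟩ j| ^ p :=
    Finset.sum_nonneg fun j _ => by positivity
  have hroot : ∀ c : ℝ, 0 ≤ c → (c * ‖x - y‖ ^ p) ^ (1 / p) = c ^ (1 / p) * ‖x - y‖ := by
    intro c hc
    rw [Real.mul_rpow hc (by positivity), ← Real.rpow_mul (norm_nonneg _),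
      mul_one_div_cancel hp0.ne', Real.rpow_one]
  constructor
  · rw [← hroot _ (by linarith)]
    have hL0 : 0 ≤ (1 - δ) * ‖x - y‖ ^ p := mul_nonneg (by linarith) (by positivity)
    exact Real.rpow_le_rpow hL0 h1 (by positivity)
  · have h3 : (1 + δ) = D ^ p * (1 - δ) := by
      rw [hδ]; field_simp; ring
    have h4 : (1 + δ) ^ (1 / p) = D * (1 - δ) ^ (1 / p) := by
      rw [h3, Real.mul_rpow (by positivity) (by linarith), ← Real.rpow_mul (by linarith),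
        mul_one_div_cancel hp0.ne', Real.rpow_one]
    calc (∑ j, |φ ⟨x, hx⟩ j - φ ⟨y, hy⟩ j| ^ p) ^ (1 / p)
        ≤ ((1 + δ) * ‖x - y‖ ^ p) ^ (1 / p) := Real.rpow_le_rpow hS0 h2 (by positivity)
      _ = (1 + δ) ^ (1 / p) * ‖x - y‖ := hroot _ (by linarith)
      _ = D * (1 - δ) ^ (1 / p) * ‖x - y‖ := by rw [h4]

theorem exists_params {p : ℝ} (hp : 1 ≤ p) {D : ℝ} (hD : 1 < D) : ∃ C : ℝ, 0 < C ∧
    ∀ n : ℕ, 2 ≤ n → ∃ m N : ℕ, (n : ℝ) < (4 / 3) ^ m ∧ 1 ≤ m ∧ 0 < N ∧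
      2 * (n : ℝ) ^ 2 * Real.exp (-(N * ((D ^ p - 1) / (D ^ p + 1)) ^ 2 /
        (4 * ((2 * m) ^ p * (4 * (n : ℝ) * m))))) < 1 ∧
      (N : ℝ) ≤ C * n * Real.log n ^ (p + 2) := by
  have hp0 : 0 < p := by linarith
  have hDp : 1 < D ^ p := Real.one_lt_rpow hD hp0
  set δ : ℝ := (D ^ p - 1) / (D ^ p + 1) with hδ
  have hδ0 : 0 < δ := div_pos (by linarith) (by linarith)
  refine ⟨288 * 12 ^ p / δ ^ 2 + 1 / Real.log 2 ^ (p + 2), by
    have := Real.log_pos one_lt_two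
    positivity, ?_⟩
  intro n hn
  have hnR : (2 : ℝ) ≤ n := by exact_mod_cast hn
  have hlog2 : 0 < Real.log 2 := Real.log_pos one_lt_two
  have hlog2' : (1 : ℝ) / 2 ≤ Real.log 2 := by
    have := Real.log_two_gt_d9
    linarith
  have hlogn : Real.log 2 ≤ Real.log n := Real.log_le_log (by norm_num) hnR
  have hlogn0 : 0 < Real.log n := by linarith
  obtain ⟨l, hl⟩ : ∃ l : ℝ, l = Real.log n := ⟨_, rfl⟩
  rw [← hl] at hlogn hlogn0 ⊢
  set m : ℕ := ⌊4 * l⌋₊ + 1 with hm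
  have hm1 : 4 * l < m := by rw [hm]; push_cast; exact Nat.lt_floor_add_one _
  have hm2 : (m : ℝ) ≤ 6 * l := by
    have : (⌊4 * l⌋₊ : ℝ) ≤ 4 * l := Nat.floor_le (by positivity)
    rw [hm]; push_cast
    linarith
  have hm0 : (0 : ℝ) < m := by linarith
  have h43 : (1 : ℝ) / 4 ≤ Real.log (4 / 3) := by
    have h1 := Real.one_sub_inv_le_log_of_pos (show (0 : ℝ) < 4 / 3 by norm_num)
    norm_num at h1
    linarith
  set L : ℝ := (2 * m) ^ p * (4 * (n : ℝ) * m) with hL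
  have hL0 : 0 < L := by positivity
  have hLle : L ≤ 24 * 12 ^ p * (n * l ^ (p + 1)) := by
    have h1 : ((2 : ℝ) * m) ^ p ≤ (12 * l) ^ p :=
      Real.rpow_le_rpow (by positivity) (by linarith) hp0.le
    have h2 : (4 * (n : ℝ) * m) ≤ 4 * n * (6 * l) := mul_le_mul_of_nonneg_left hm2 (by positivity)
    calc L ≤ (12 * l) ^ p * (4 * n * (6 * l)) := mul_le_mul h1 h2 (by positivity) (by positivity)
      _ = 24 * 12 ^ p * (n * (l ^ p * l)) := by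
          rw [Real.mul_rpow (by norm_num) hlogn0.le]; ring
      _ = _ := by rw [Real.rpow_add hlogn0, Real.rpow_one]
  set N : ℕ := ⌊12 * L * l / δ ^ 2⌋₊ + 1 with hN
  have hN1 : 12 * L * l / δ ^ 2 < N := by rw [hN]; push_cast; exact Nat.lt_floor_add_one _
  have hN2 : (N : ℝ) ≤ 12 * L * l / δ ^ 2 + 1 := by
    have : (⌊12 * L * l / δ ^ 2⌋₊ : ℝ) ≤ 12 * L * l / δ ^ 2 := Nat.floor_le (by positivity)
    rw [hN]; push_cast
    linarith
  refine ⟨m, N, ?_, by omega, by omega, ?_, ?_⟩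
  · have h1 : Real.log n < Real.log ((4 / 3) ^ m) := by
      rw [Real.log_pow, ← hl]
      have : (m : ℝ) * (1 / 4) ≤ m * Real.log (4 / 3) := mul_le_mul_of_nonneg_left h43 hm0.le
      linarith
    exact (Real.log_lt_log_iff (by positivity) (by positivity)).mp h1
  · have h1 : 3 * l < N * δ ^ 2 / (4 * L) := by
      rw [lt_div_iff₀ (by positivity)]
      rw [div_lt_iff₀ (by positivity)] at hN1
      linarith
    have h2 : Real.exp (-(N * δ ^ 2 / (4 * L))) < Real.exp (-(3 * l)) :=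
      Real.exp_lt_exp.mpr (by linarith)
    have h3 : Real.exp (-(3 * l)) = ((n : ℝ) ^ 3)⁻¹ := by
      rw [Real.exp_neg, hl]
      congr 1
      rw [show (3 : ℝ) * Real.log n = ((3 : ℕ) : ℝ) * Real.log n by norm_num, ← Real.log_pow,
        Real.exp_log (by positivity)]
    rw [h3] at h2
    calc 2 * (n : ℝ) ^ 2 * Real.exp (-(N * δ ^ 2 / (4 * L)))
        < 2 * (n : ℝ) ^ 2 * ((n : ℝ) ^ 3)⁻¹ := by
          apply mul_lt_mul_of_pos_left h2 (by positivity)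
      _ = 2 / (n : ℝ) := by field_simp
      _ ≤ 1 := by rw [div_le_one (by positivity)]; exact hnR
  · have h1 : 12 * L * l / δ ^ 2 ≤ 288 * 12 ^ p / δ ^ 2 * (n * l ^ (p + 2)) := by
      have h2 : 12 * L * l ≤ 12 * (24 * 12 ^ p * (n * l ^ (p + 1))) * l := by
        apply mul_le_mul_of_nonneg_right _ hlogn0.le
        linarith
      have h3 : l ^ (p + 2) = l ^ (p + 1) * l := by
        rw [show p + 2 = (p + 1) + 1 by ring, Real.rpow_add hlogn0 (p + 1) 1, Real.rpow_one]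
      rw [h3, div_mul_eq_mul_div]
      apply div_le_div_of_nonneg_right _ (by positivity)
      linarith
    have h4 : 1 ≤ 1 / Real.log 2 ^ (p + 2) * (n * l ^ (p + 2)) := by
      have h5 : Real.log 2 ^ (p + 2) ≤ l ^ (p + 2) :=
        Real.rpow_le_rpow hlog2.le hlogn (by linarith)
      have h6 : 0 < Real.log 2 ^ (p + 2) := Real.rpow_pos_of_pos hlog2 _
      rw [one_div, inv_mul_eq_div, le_div_iff₀ h6]
      have h7 : 0 < l ^ (p + 2) := Real.rpow_pos_of_pos hlogn0 _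
      nlinarith
    calc (N : ℝ) ≤ 12 * L * l / δ ^ 2 + 1 := hN2
      _ ≤ 288 * 12 ^ p / δ ^ 2 * (n * l ^ (p + 2))
          + 1 / Real.log 2 ^ (p + 2) * (n * l ^ (p + 2)) := add_le_add h1 h4
      _ = _ := by ring

/-- For all `p ≥ 1` and `D > 1`, `d_p(n,D) ≤ C n (log n)^{p+2}`. -/
theorem result : ∀ p D : ℝ, 1 ≤ p → 1 < D → ∃ C : ℝ, 0 < C ∧ ∀ n : ℕ, 2 ≤ n →
    ∃ d : ℕ, (d : ℝ) ≤ C * n * Real.log n ^ (p + 2) ∧ EmbedsInto.{u} p D n d := by
  intro p D hp hD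
  obtain ⟨C, hC, h⟩ := exists_params hp hD
  refine ⟨C, hC, fun n hn => ?_⟩
  obtain ⟨m, N, h1, h2, h3, h4, h5⟩ := h n hn
  exact ⟨N, h5, embed_of_params hp hD hn h1 h2 h3 h4⟩

end Vale.Agent.Results.P249.NearLinear
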